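import Mathlib

/-!
Pool piece SS-3 of the elementary Sarkozy-Szemeredi bound (P160): the subsets S of Fin n with
few descents k in S, k + 1 not in S among the positions k with 2 (k + 1) ≤ n are rare: their
number times n sqrt n is at most a constant times 2 ^ n.
-/

namespace Vale.Agent.Lib.P160.H84

open Finset

/-- The number of positions k with 2 (k + 1) ≤ n, k in S and k + 1 not in S. -/
def descCount (n : ℕ) (S : Finset (Fin n)) : ℕ :=
  (univ.filter fun k : Fin n => 2 * ((k : ℕ) + 1) ≤ n ∧ k ∈ S ∧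
    ∀ k2 : Fin n, (k2 : ℕ) = (k : ℕ) + 1 → k2 ∉ S).card

/-- The number of j < N with 2 j in T and 2 j + 1 not in T. -/
def pc (N : ℕ) (T : Finset ℕ) : ℕ :=
  ((range N).filter fun j => 2 * j ∈ T ∧ 2 * j + 1 ∉ T).card

theorem pc_insert_ge (N a : ℕ) (ha : 2 * N ≤ a) (T : Finset ℕ) :
    pc N (insert a T) = pc N T := by
  unfold pc
  congr 1
  apply Finset.filter_congr
  intro j hj
  have hj' : j < N := Finset.mem_range.mp hj
  have h1 : 2 * j ≠ a := by omega
  have h2 : 2 * j + 1 ≠ a := by omega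
  simp [Finset.mem_insert, h1, h2]

theorem pc_succ (N : ℕ) (T : Finset ℕ) :
    pc (N + 1) T = pc N T + if 2 * N ∈ T ∧ 2 * N + 1 ∉ T then 1 else 0 := by
  unfold pc
  rw [Finset.range_add_one, Finset.filter_insert]
  split_ifs with h
  · rw [Finset.card_insert_of_notMem]
    simp
  · simp

theorem sum_pc (N : ℕ) :
    ∑ T ∈ (range (2 * N)).powerset, (1 / 2 : ℝ) ^ pc N T = (7 / 2 : ℝ) ^ N := by
  induction N with
  | zero => simp [pc]
  | succ N ih =>
    have e : range (2 * (N + 1)) = insert (2 * N + 1) (insert (2 * N) (range (2 * N))) := by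
      rw [show 2 * (N + 1) = 2 * N + 1 + 1 by ring, Finset.range_add_one, Finset.range_add_one]
    have h1 : 2 * N ∉ range (2 * N) := by simp
    have h2 : 2 * N + 1 ∉ insert (2 * N) (range (2 * N)) := by simp
    rw [e, Finset.sum_powerset_insert h2, Finset.sum_powerset_insert h1,
      Finset.sum_powerset_insert h1, pow_succ, ← ih, Finset.sum_mul]
    simp only [← Finset.sum_add_distrib]
    apply Finset.sum_congr rfl
    intro T hT
    have hT' : T ⊆ range (2 * N) := Finset.mem_powerset.mp hT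
    have n1 : 2 * N ∉ T := fun h => h1 (hT' h)
    have n2 : 2 * N + 1 ∉ T := fun h => by
      have := Finset.mem_range.mp (hT' h)
      omega
    have a1 : pc (N + 1) T = pc N T := by
      rw [pc_succ, if_neg (fun h => n1 h.1), add_zero]
    have a2 : pc (N + 1) (insert (2 * N) T) = pc N T + 1 := by
      rw [pc_succ, pc_insert_ge N (2 * N) le_rfl, if_pos]
      refine ⟨Finset.mem_insert_self _ _, ?_⟩
      rw [Finset.mem_insert]
      rintro (h | h)
      · omega
      · exact n2 h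
    have a3 : pc (N + 1) (insert (2 * N + 1) T) = pc N T := by
      rw [pc_succ, pc_insert_ge N (2 * N + 1) (by omega), if_neg, add_zero]
      rintro ⟨h, -⟩
      rw [Finset.mem_insert] at h
      rcases h with h | h
      · omega
      · exact n1 h
    have a4 : pc (N + 1) (insert (2 * N + 1) (insert (2 * N) T)) = pc N T := by
      rw [pc_succ, pc_insert_ge N (2 * N + 1) (by omega), pc_insert_ge N (2 * N) le_rfl, if_neg,
        add_zero]
      rintro ⟨-, h⟩
      exact h (Finset.mem_insert_self _ _)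
    rw [a1, a2, a3, a4, pow_succ]
    ring

theorem sum_pc_ext (N : ℕ) (d : ℕ) :
    ∑ T ∈ (range (2 * N + d)).powerset, (1 / 2 : ℝ) ^ pc N T = 2 ^ d * (7 / 2 : ℝ) ^ N := by
  induction d with
  | zero => simpa using sum_pc N
  | succ d ih =>
    have h1 : 2 * N + d ∉ range (2 * N + d) := by simp
    rw [show 2 * N + (d + 1) = 2 * N + d + 1 by ring, Finset.range_add_one,
      Finset.sum_powerset_insert h1]
    have h2 : ∑ t ∈ (range (2 * N + d)).powerset, (1 / 2 : ℝ) ^ pc N (insert (2 * N + d) t) =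
        ∑ t ∈ (range (2 * N + d)).powerset, (1 / 2 : ℝ) ^ pc N t := by
      apply Finset.sum_congr rfl
      intro t _
      rw [pc_insert_ge N (2 * N + d) (by omega)]
    rw [h2, ih, pow_succ]
    ring

theorem pc_le_desc (n N : ℕ) (hN : 4 * N ≤ n) (S : Finset (Fin n)) :
    pc N (S.map Fin.valEmbedding) ≤ descCount n S := by
  unfold pc descCount
  have e1 := Finset.card_image_of_injective
    ((range N).filter fun j => 2 * j ∈ S.map Fin.valEmbedding ∧
      2 * j + 1 ∉ S.map Fin.valEmbedding) (f := fun j : ℕ => 2 * j)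
    (fun a b h => by
      have h' : 2 * a = 2 * b := h
      omega)
  rw [← e1, ← Finset.card_map Fin.valEmbedding]
  apply Finset.card_le_card
  intro x hx
  rw [Finset.mem_image] at hx
  obtain ⟨j, hj, rfl⟩ := hx
  rw [Finset.mem_filter, Finset.mem_range] at hj
  obtain ⟨hjN, h1, h2⟩ := hj
  rw [Finset.mem_map] at h1
  obtain ⟨k, hk, hkv⟩ := h1
  rw [Finset.mem_map]
  refine ⟨k, ?_, hkv⟩
  rw [Finset.mem_filter]
  have hkv' : (k : ℕ) = 2 * j := hkv
  refine ⟨Finset.mem_univ _, by omega, hk, fun k2 hk2 hk2S => h2 ?_⟩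
  rw [Finset.mem_map]
  exact ⟨k2, hk2S, by rw [Fin.valEmbedding_apply, hk2, hkv']⟩

theorem bad_count (n : ℕ) :
    ((univ.filter fun S : Finset (Fin n) => 128 * descCount n S < n).card : ℝ) ≤
      2 ^ n * (7 / 10 : ℝ) ^ (n / 32) := by
  obtain ⟨N, hN⟩ : ∃ N, N = n / 4 := ⟨_, rfl⟩
  obtain ⟨t, ht⟩ : ∃ t, t = n / 32 := ⟨_, rfl⟩
  rw [← ht]
  have hN4 : 4 * N ≤ n := by omega
  have h8 : 8 * t ≤ N := by omega
  have h2N : 2 * N ≤ n := by omega
  have hcard : (univ.filter fun S : Finset (Fin n) => 128 * descCount n S < n).card ≤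
      ((range n).powerset.filter fun T => pc N T ≤ t).card := by
    apply Finset.card_le_card_of_injOn (fun S => S.map Fin.valEmbedding)
    · intro S hS
      have hS' := (Finset.mem_filter.mp (Finset.mem_coe.mp hS)).2
      rw [Finset.mem_coe, Finset.mem_filter, Finset.mem_powerset]
      refine ⟨?_, ?_⟩
      · intro x hx
        rw [Finset.mem_map] at hx
        obtain ⟨k, -, rfl⟩ := hx
        exact Finset.mem_range.mpr k.2
      · show pc N (S.map Fin.valEmbedding) ≤ t
        have := pc_le_desc n N hN4 S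
        omega
    · intro S _ S' _ h
      exact Finset.map_injective _ h
  have hmark : (((range n).powerset.filter fun T => pc N T ≤ t).card : ℝ) ≤
      2 ^ t * ∑ T ∈ (range n).powerset, (1 / 2 : ℝ) ^ pc N T := by
    rw [Finset.mul_sum, Finset.card_eq_sum_ones, Nat.cast_sum]
    calc (∑ T ∈ (range n).powerset.filter fun T => pc N T ≤ t, ((1 : ℕ) : ℝ)) ≤
        ∑ T ∈ (range n).powerset.filter fun T => pc N T ≤ t,
          (2 : ℝ) ^ t * (1 / 2 : ℝ) ^ pc N T := by
          apply Finset.sum_le_sum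
          intro T hT
          have hTt := (Finset.mem_filter.mp hT).2
          rw [Nat.cast_one]
          calc (1 : ℝ) = 2 ^ pc N T * (1 / 2 : ℝ) ^ pc N T := by
                rw [← mul_pow]
                norm_num
            _ ≤ 2 ^ t * (1 / 2 : ℝ) ^ pc N T := by
                apply mul_le_mul_of_nonneg_right _ (by positivity)
                exact pow_le_pow_right₀ (by norm_num) hTt
      _ ≤ ∑ T ∈ (range n).powerset, (2 : ℝ) ^ t * (1 / 2 : ℝ) ^ pc N T := by
          apply Finset.sum_le_sum_of_subset_of_nonneg (Finset.filter_subset _ _)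
          intro T _ _
          positivity
  have hsum : ∑ T ∈ (range n).powerset, (1 / 2 : ℝ) ^ pc N T =
      2 ^ (n - 2 * N) * (7 / 2 : ℝ) ^ N := by
    have h := sum_pc_ext N (n - 2 * N)
    rwa [Nat.add_sub_cancel' h2N] at h
  have e1 : (2 : ℝ) ^ (n - 2 * N) * (7 / 2 : ℝ) ^ N = 2 ^ n * (7 / 8 : ℝ) ^ N := by
    have h : (2 : ℝ) ^ n = 2 ^ (n - 2 * N) * 2 ^ (2 * N) := by
      rw [← pow_add, Nat.sub_add_cancel h2N]
    rw [h, pow_mul, mul_assoc, ← mul_pow]
    norm_num
  have e2 : (2 : ℝ) ^ t * (7 / 8 : ℝ) ^ N ≤ (7 / 10 : ℝ) ^ t := by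
    calc (2 : ℝ) ^ t * (7 / 8 : ℝ) ^ N ≤ 2 ^ t * (7 / 8 : ℝ) ^ (8 * t) := by
          apply mul_le_mul_of_nonneg_left _ (by positivity)
          exact pow_le_pow_of_le_one (by norm_num) (by norm_num) h8
      _ = (2 * (7 / 8 : ℝ) ^ 8) ^ t := by rw [mul_pow, ← pow_mul]
      _ ≤ (7 / 10 : ℝ) ^ t := by
          apply pow_le_pow_left₀ (by positivity)
          norm_num
  calc ((univ.filter fun S : Finset (Fin n) => 128 * descCount n S < n).card : ℝ)
      ≤ (((range n).powerset.filter fun T => pc N T ≤ t).card : ℝ) := by exact_mod_cast hcard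
    _ ≤ 2 ^ t * (2 ^ (n - 2 * N) * (7 / 2 : ℝ) ^ N) := by
        rw [← hsum]
        exact hmark
    _ = 2 ^ n * (2 ^ t * (7 / 8 : ℝ) ^ N) := by
        rw [e1]
        ring
    _ ≤ 2 ^ n * (7 / 10 : ℝ) ^ t := by
        apply mul_le_mul_of_nonneg_left e2 (by positivity)

/-- The subsets of Fin n with fewer than n / 128 descents in the first half are rare. -/
theorem bad_sets : ∃ C : ℝ, 0 < C ∧ ∀ n : ℕ,
    ((univ.filter fun S : Finset (Fin n) => 128 * descCount n S < n).card : ℝ) *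
      ((n : ℝ) * Real.sqrt n) ≤ C * 2 ^ n := by
  have hb := (tendsto_pow_const_mul_const_pow_of_abs_lt_one 2
    (show |(7 / 10 : ℝ)| < 1 by rw [abs_of_pos] <;> norm_num)).bddAbove_range
  obtain ⟨K, hK⟩ := hb
  have hK' : ∀ m : ℕ, (m : ℝ) ^ 2 * (7 / 10 : ℝ) ^ m ≤ K := by
    intro m
    have h := hK (Set.mem_range_self m)
    simpa using h
  have hK0 : 0 ≤ K := le_trans (by positivity) (hK' 0)
  refine ⟨1024 * (10 / 7) * K + 1, by positivity, fun n => ?_⟩
  have h1 := bad_count n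
  obtain ⟨t, ht⟩ : ∃ t, t = n / 32 := ⟨_, rfl⟩
  rw [← ht] at h1
  have hsq : (n : ℝ) * Real.sqrt n ≤ (n : ℝ) ^ 2 := by
    rcases Nat.eq_zero_or_pos n with h | h
    · subst h
      simp
    · have h1n : (1 : ℝ) ≤ n := by exact_mod_cast h
      have h2 : Real.sqrt n ≤ n := Real.sqrt_le_iff.mpr ⟨by positivity, by nlinarith⟩
      calc (n : ℝ) * Real.sqrt n ≤ (n : ℝ) * n := by gcongr
        _ = (n : ℝ) ^ 2 := by ring
  have hn : (n : ℝ) ≤ 32 * ((t : ℝ) + 1) := by
    have h : n < 32 * (t + 1) := by omega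
    exact_mod_cast h.le
  have h3 : (n : ℝ) ^ 2 ≤ 1024 * ((t : ℝ) + 1) ^ 2 := by
    calc (n : ℝ) ^ 2 ≤ (32 * ((t : ℝ) + 1)) ^ 2 := by gcongr
      _ = 1024 * ((t : ℝ) + 1) ^ 2 := by ring
  have h2 : ((t : ℝ) + 1) ^ 2 * (7 / 10 : ℝ) ^ (t + 1) ≤ K := by
    have h := hK' (t + 1)
    push_cast at h
    exact h
  have hkey : (7 / 10 : ℝ) ^ t * (n : ℝ) ^ 2 ≤ 1024 * (10 / 7) * K := by
    calc (7 / 10 : ℝ) ^ t * (n : ℝ) ^ 2 = (10 / 7) * ((7 / 10 : ℝ) ^ (t + 1) * (n : ℝ) ^ 2) := by
          rw [pow_succ]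
          ring
      _ ≤ (10 / 7) * ((7 / 10 : ℝ) ^ (t + 1) * (1024 * ((t : ℝ) + 1) ^ 2)) := by gcongr
      _ = 1024 * (10 / 7) * (((t : ℝ) + 1) ^ 2 * (7 / 10 : ℝ) ^ (t + 1)) := by ring
      _ ≤ 1024 * (10 / 7) * K := by gcongr
  calc ((univ.filter fun S : Finset (Fin n) => 128 * descCount n S < n).card : ℝ) *
      ((n : ℝ) * Real.sqrt n) ≤ (2 ^ n * (7 / 10 : ℝ) ^ t) * (n : ℝ) ^ 2 := by
        apply mul_le_mul h1 hsq (by positivity) (by positivity)
    _ = 2 ^ n * ((7 / 10 : ℝ) ^ t * (n : ℝ) ^ 2) := by ring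
    _ ≤ 2 ^ n * (1024 * (10 / 7) * K) := by
        apply mul_le_mul_of_nonneg_left hkey (by positivity)
    _ ≤ (1024 * (10 / 7) * K + 1) * 2 ^ n := by
        nlinarith [pow_pos (show (0 : ℝ) < 2 by norm_num) n]

end Vale.Agent.Lib.P160.H84
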